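import Mathlib

/-!
# P022E/Gp: finite subgroups of `SL₂` in characteristic two (definitions and statements)
-/

set_option linter.all false

noncomputable section

namespace Vale.Agent.P022E.Gp

open Matrix

variable {F : Type} [Field F]

/-- the upper unipotent matrix -/
def uu (a : F) : GL (Fin 2) F :=
  ⟨!![1, a; 0, 1], !![1, -a; 0, 1], by simp [← Matrix.one_fin_two], by simp [← Matrix.one_fin_two]⟩

/-- the lower unipotent matrix -/
def ll (b : F) : GL (Fin 2) F :=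
  ⟨!![1, 0; b, 1], !![1, 0; -b, 1], by simp [← Matrix.one_fin_two], by simp [← Matrix.one_fin_two]⟩

theorem uu_add (a b : F) : uu (a + b) = uu a * uu b := by
  ext i j; fin_cases i <;> fin_cases j <;> simp [uu, add_comm]

theorem uu_zero : uu (0 : F) = 1 := by
  ext i j; fin_cases i <;> fin_cases j <;> simp [uu]

theorem uu_neg (a : F) : uu (-a) = (uu a)⁻¹ :=
  eq_inv_of_mul_eq_one_left (by rw [← uu_add, neg_add_cancel, uu_zero])

variable (F) in
/-- the group of the upper unipotent matrices -/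
def Up : Subgroup (GL (Fin 2) F) where
  carrier := Set.range uu
  mul_mem' := by rintro _ _ ⟨a, rfl⟩ ⟨b, rfl⟩; exact ⟨a + b, uu_add a b⟩
  one_mem' := ⟨0, uu_zero⟩
  inv_mem' := by rintro _ ⟨a, rfl⟩; exact ⟨-a, uu_neg a⟩

/-- a finite group of matrices of determinant one -/
structure Sl (H : Subgroup (GL (Fin 2) F)) : Prop where
  fin : Finite H
  det : ∀ g ∈ H, (g : Matrix (Fin 2) (Fin 2) F).det = 1

/-- the standard position of a big group -/
structure Std (H : Subgroup (GL (Fin 2) F)) : Prop where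
  sl : Sl H
  idx : Odd ((Up F).relIndex H)
  two : ∃ a a' : F, a ≠ 0 ∧ a' ≠ 0 ∧ a ≠ a' ∧ uu a ∈ H ∧ uu a' ∈ H
  low : ∃ b : F, b ≠ 0 ∧ ll b ∈ H

/-- `c` is a cocycle of the adjoint action on `H` -/
def Coc (H : Subgroup (GL (Fin 2) F)) (c : GL (Fin 2) F → Matrix (Fin 2) (Fin 2) F) : Prop :=
  ∀ g ∈ H, ∀ h ∈ H, c (g * h) = c g + g.1 * c h * (g⁻¹).1

/-- what is used of a big group; invariant under conjugation -/
structure Big (H : Subgroup (GL (Fin 2) F)) : Prop where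
  sl : Sl H
  h1 : ∀ c, Coc H c → ∃ a : Matrix (Fin 2) (Fin 2) F, ∀ g ∈ H, c g = a - g.1 * a * (g⁻¹).1
  prf : ∀ χ : GL (Fin 2) F → F, (∀ g ∈ H, ∀ h ∈ H, χ (g * h) = χ g + χ h) → ∀ g ∈ H, χ g = 0
  spn : ∀ X : Matrix (Fin 2) (Fin 2) F,
    (∀ g ∈ H, g.1.trace ≠ 0 → (X * g.1).trace = 0) → X.trace = 0 → X = 0
  reg : ∃ g ∈ H, g.1.trace ≠ 0

/-- a group of odd order is commutative -/
def S_ODD : Prop := ∀ (F : Type) [Field F] [CharP F 2] (N : Subgroup (GL (Fin 2) F)), Sl N →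
  Odd (Nat.card N) → ∀ g ∈ N, ∀ h ∈ N, g * h = h * g

/-- the standard position (from `S_ODD`) -/
def S_STD : Prop := ∀ (F : Type) [Field F] [CharP F 2] (H : Subgroup (GL (Fin 2) F)), Sl H →
  ¬ IsSolvable H → ∃ w : GL (Fin 2) F, Std (H.map (MulAut.conj w).toMonoidHom)

/-- the torus is transitive on the non trivial unipotent elements -/
def S_TOR : Prop := ∀ (F : Type) [Field F] [CharP F 2] (H : Subgroup (GL (Fin 2) F)), Std H →
  ∀ a a' : F, a ≠ 0 → a' ≠ 0 → uu a ∈ H → uu a' ∈ H →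
    ∃ t ∈ H, ∃ s : F, s ≠ 0 ∧ t.1 = !![s, 0; 0, s⁻¹] ∧ s ^ 2 * a' = a

/-- the properties in the standard position (from `S_TOR`) -/
def S_BIG : Prop := ∀ (F : Type) [Field F] [CharP F 2] (H : Subgroup (GL (Fin 2) F)), Std H → Big H

/-- invariance under conjugation -/
def S_CNJ : Prop := ∀ (F : Type) [Field F] (H : Subgroup (GL (Fin 2) F)) (w : GL (Fin 2) F),
  Big (H.map (MulAut.conj w).toMonoidHom) → Big H

/-- **the output** -/
def BIG : Prop := ∀ (F : Type) [Field F] [CharP F 2] (H : Subgroup (GL (Fin 2) F)), Sl H →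
  ¬ IsSolvable H → Big H

theorem big_of (h1 : S_STD) (h2 : S_BIG) (h3 : S_CNJ) : BIG := fun F _ _ H s n =>
  let ⟨w, k⟩ := h1 F H s n
  h3 F H w (h2 F _ k)

end Vale.Agent.P022E.Gp
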