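import Vale.Agent.P022E.Gp.Tor
import Vale.Agent.P022E.G.G2

/-!
# P022E/Gp: the properties of a big group
-/

set_option linter.all false

noncomputable section

namespace Vale.Agent.P022E.Gp

open Matrix

variable {F : Type} [Field F] {H : Subgroup (GL (Fin 2) F)}

theorem uu_ne {a : F} : uu a ≠ 1 ↔ a ≠ 0 := not_congr
  ⟨fun e => by simpa [uu] using congrArg (fun x : GL (Fin 2) F => x.1 0 1) e,
    fun e => e ▸ uu_zero⟩

variable [CharP F 2]

theorem Std.nf (S : Std H) : G.Nf H (Up F ⊓ H) := by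
  refine ⟨inf_le_right, by rw [Subgroup.inf_relIndex_right]; exact S.idx, ?_, ?_, ?_⟩
  · rintro _ ⟨⟨a, rfl⟩, -⟩
    simp [uu]
  · obtain ⟨a, a', a0, a1, ne, h, h'⟩ := S.two
    exact ⟨_, ⟨⟨a, rfl⟩, h⟩, _, ⟨⟨a', rfl⟩, h'⟩, uu_ne.2 a0, uu_ne.2 a1, fun e =>
      ne (by simpa [uu] using congrArg (fun x : GL (Fin 2) F => x.1 0 1) e)⟩
  · rintro _ ⟨⟨a, rfl⟩, h⟩ _ ⟨⟨a', rfl⟩, h'⟩ n n'
    obtain ⟨t, m, s, s0, e, k⟩ := tor F H S a a' (uu_ne.1 n) (uu_ne.1 n') h h'
    refine ⟨t, m, by simp [e], by simp [e], ?_⟩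
    simp only [e, uu, ← k]
    simp
    field_simp

theorem Std.h1 (S : Std H) {c} (h : Coc H c) :
    ∃ a : Matrix (Fin 2) (Fin 2) F, ∀ g ∈ H, c g = a - g.1 * a * (g⁻¹).1 :=
  have := S.sl.fin
  S.nf.h1 h

theorem Std.prf (S : Std H) (χ : GL (Fin 2) F → F)
    (h : ∀ g ∈ H, ∀ h ∈ H, χ (g * h) = χ g + χ h) : ∀ g ∈ H, χ g = 0 := by
  obtain ⟨X, hX⟩ := S.h1 (c := fun g => χ g • 1) fun g a g' b => by
    simp only [h g a g' b, add_smul, mul_smul_comm, smul_mul_assoc, mul_one, Units.mul_inv]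
  have k : ∀ g ∈ H, g.1 * X = X * g.1 - χ g • g.1 := fun g a => by
    have := congrArg (· * g.1) (hX g a)
    simp only [sub_mul, smul_mul_assoc, one_mul, mul_assoc, Units.inv_mul, mul_one] at this
    rw [this, sub_sub_cancel]
  obtain ⟨a, a', a0, a1, ne, m, m'⟩ := S.two
  obtain ⟨b, b0, mb⟩ := S.low
  have p1 := congrFun (congrFun (k _ m) 0) 0
  have p2 := congrFun (congrFun (k _ m) 0) 1
  have p3 := congrFun (congrFun (k _ m') 0) 0
  have p4 := congrFun (congrFun (k _ m') 0) 1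
  have p5 := congrFun (congrFun (k _ mb) 0) 0
  have p6 := congrFun (congrFun (k _ mb) 1) 0
  generalize χ (uu a) = x, χ (uu a') = x', χ (ll b) = y at p1 p2 p3 p4 p5 p6
  simp [uu, ll, Matrix.mul_apply, Fin.sum_univ_two] at p1 p2 p3 p4 p5 p6
  have q1 : x = X 0 0 - X 1 1 := mul_left_cancel₀ a0 (by linear_combination p2)
  have q2 : x' = X 0 0 - X 1 1 := mul_left_cancel₀ a1 (by linear_combination p4)
  have q3 : X 1 0 = 0 := mul_left_cancel₀ (sub_ne_zero.2 ne) (by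
    linear_combination p1 - p3 - q1 + q2)
  have q4 : X 1 1 = X 0 0 := by linear_combination q1 - p1 + a * q3
  have q5 : y = 0 := mul_left_cancel₀ b0 (by linear_combination p6 + b * q4)
  have q6 : X 0 1 = 0 := mul_left_cancel₀ b0 (by linear_combination q5 - p5)
  intro g m
  have e : X = X 0 0 • (1 : Matrix (Fin 2) (Fin 2) F) := by
    ext i j; fin_cases i <;> fin_cases j <;> simp [q3, q4, q6]
  have := k g m
  rw [e, mul_smul_comm, smul_mul_assoc, mul_one, one_mul, eq_comm, sub_eq_self] at this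
  exact (smul_eq_zero.1 this).resolve_right g.ne_zero

theorem tr_ul {a b : F} (a0 : a ≠ 0) (b0 : b ≠ 0) : (uu a * ll b).1.trace ≠ 0 := by
  simp [uu, ll, Matrix.trace_fin_two]
  exact fun e => mul_ne_zero a0 b0 (by linear_combination e - CharTwo.two_eq_zero (R := F))

theorem Std.spn (S : Std H) (X : Matrix (Fin 2) (Fin 2) F)
    (h : ∀ g ∈ H, g.1.trace ≠ 0 → (X * g.1).trace = 0) (t : X.trace = 0) : X = 0 := by
  have h2 : (2 : F) = 0 := CharTwo.two_eq_zero
  obtain ⟨a, a', a0, a1, ne, m, m'⟩ := S.two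
  obtain ⟨b, b0, mb⟩ := S.low
  obtain ⟨d, md, s, s0, e, k⟩ := tor F H S a a' a0 a1 m m'
  have s1 : s + s⁻¹ ≠ 0 := fun z => ne (by
    have : s * s⁻¹ = 1 := mul_inv_cancel₀ s0
    linear_combination -k + a' * s * z - a' * this - a' * h2)
  have p1 := h d md (by simpa [e, Matrix.trace_fin_two] using s1)
  have p2 := h _ (H.mul_mem m mb) (tr_ul a0 b0)
  have p3 := h _ (H.mul_mem m' mb) (tr_ul a1 b0)
  simp [e, uu, ll, Matrix.trace_fin_two, Matrix.mul_apply, Fin.sum_univ_two] at p1 p2 p3 t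
  have q1 : X 0 0 = 0 := mul_left_cancel₀ s1 (by
    linear_combination p1 - s⁻¹ * t + s⁻¹ * X 0 0 * h2)
  have q2 : X 1 1 = 0 := by linear_combination t - q1
  have q3 : X 1 0 = 0 := mul_left_cancel₀ (sub_ne_zero.2 ne) (by
    linear_combination p2 - p3 - (a - a') * b * q1)
  have q4 : X 0 1 = 0 := mul_left_cancel₀ b0 (by
    linear_combination p2 - (1 + a * b) * q1 - q2 - a * q3)
  ext i j; fin_cases i <;> fin_cases j <;> simp [q1, q2, q3, q4]

theorem big : S_BIG := fun F _ _ H S =>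
  let ⟨_, _, a0, _, _, m, _⟩ := S.two
  let ⟨_, b0, mb⟩ := S.low
  ⟨S.sl, fun _ => S.h1, S.prf, S.spn, _, H.mul_mem m mb, tr_ul a0 b0⟩

theorem cnj : S_CNJ := fun F _ H w B => by
  have m : ∀ g ∈ H, w * g * w⁻¹ ∈ H.map (MulAut.conj w).toMonoidHom := fun g a => ⟨g, a, rfl⟩
  have e : ∀ g : GL (Fin 2) F, w⁻¹ * (w * g * w⁻¹) * w = g := fun g => by group
  have tr : ∀ Y : Matrix (Fin 2) (Fin 2) F, (w.1 * Y * (w⁻¹).1).trace = Y.trace := fun Y =>
    Matrix.trace_units_conj w Y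
  refine ⟨⟨?_, fun g a => ?_⟩, fun c h => ?_, fun χ h g a => ?_, fun X h t => ?_, ?_⟩
  · have := B.sl.fin
    exact Finite.of_equiv _ (H.equivMapOfInjective (MulAut.conj w).toMonoidHom
      (MulAut.conj w).injective).symm.toEquiv
  · simpa only [Units.val_mul, Matrix.det_units_conj] using B.sl.det _ (m g a)
  · obtain ⟨X, hX⟩ := B.h1 (fun g => w.1 * c (w⁻¹ * g * w) * (w⁻¹).1) (by
      rintro _ ⟨g, a, rfl⟩ _ ⟨g', b, rfl⟩
      simp only [MulEquiv.coe_toMonoidHom, MulAut.conj_apply, conj_mul, e, h g a g' b,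
        _root_.mul_inv_rev, inv_inv, Units.val_mul, mul_add, add_mul, mul_assoc,
        Units.inv_mul_cancel_left, inv_mul_cancel_left, inv_mul_cancel, mul_one])
    refine ⟨(w⁻¹).1 * X * w.1, fun g a => ?_⟩
    have := congrArg (fun Y => (w⁻¹).1 * Y * w.1) (hX _ (m g a))
    simpa only [e, _root_.mul_inv_rev, inv_inv, Units.val_mul, mul_sub, sub_mul, mul_assoc,
      Units.inv_mul_cancel_left, Units.inv_mul, mul_one, inv_mul_cancel_left, inv_mul_cancel]
      using this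
  · have := B.prf (fun g => χ (w⁻¹ * g * w)) (by
      rintro _ ⟨g, a, rfl⟩ _ ⟨g', b, rfl⟩
      simp only [MulEquiv.coe_toMonoidHom, MulAut.conj_apply, conj_mul, e, h g a g' b]) _ (m g a)
    simpa only [e] using this
  · have := B.spn (w.1 * X * (w⁻¹).1) (by
      rintro _ ⟨g, a, rfl⟩ n
      simp only [MulEquiv.coe_toMonoidHom, MulAut.conj_apply, Units.val_mul, tr] at n ⊢
      rw [← h g a n, ← tr (X * g.1)]
      simp only [mul_assoc, Units.inv_mul_cancel_left]) (by rw [tr, t])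
    rwa [Units.mul_left_eq_zero, Units.mul_right_eq_zero] at this
  · obtain ⟨_, ⟨g, a, rfl⟩, n⟩ := B.reg
    simp only [MulEquiv.coe_toMonoidHom, MulAut.conj_apply, Units.val_mul, tr] at n
    exact ⟨g, a, n⟩

end Vale.Agent.P022E.Gp
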