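import Vale.Agent.P022E.Gp.Std
import Vale.Agent.P022E.Gp.Big

/-! The closed statement on non solvable groups. -/

namespace Vale.Agent.P022E.Gp

theorem big0 : BIG := big_of std0 big cnj

end Vale.Agent.P022E.Gp
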