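import Vale.Agent.P022E.Gp.Defs
import Vale.Agent.P022E.G.G1b

/-! The standard position of a non solvable group. -/

set_option linter.all false

noncomputable section

namespace Vale.Agent.P022E.Gp

open Matrix

namespace St

variable {F : Type} [Field F] [CharP F 2]

theorem tr_sq (x : Matrix (Fin 2) (Fin 2) F) : (x * x).trace = x.trace ^ 2 := by
  have h2 : (2 : F) = 0 := CharTwo.two_eq_zero
  simp only [trace_fin_two, mul_apply, Fin.sum_univ_two]
  linear_combination (x 0 1 * x 1 0 - x 0 0 * x 1 1) * h2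

theorem tr_zero (g : GL (Fin 2) F) (k : ℕ) (h : g ^ 2 ^ k = 1) : g.1 1 1 = g.1 0 0 := by
  have h1 : ∀ k : ℕ, (g ^ 2 ^ k).1.trace = g.1.trace ^ 2 ^ k := fun k => by
    induction k with
    | zero => simp
    | succ k ih => rw [pow_succ, pow_mul, sq, Units.val_mul, tr_sq, ih, ← pow_mul]
  have h2 : (2 : F) = 0 := CharTwo.two_eq_zero
  have h3 := h1 k
  rw [h, Units.val_one, trace_one, Fintype.card_fin, Nat.cast_ofNat, h2] at h3
  have h4 := pow_eq_zero_iff (by positivity) |>.1 h3.symm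
  rw [trace_fin_two] at h4
  linear_combination h4 - g.1 0 0 * h2

theorem sq_one (g : GL (Fin 2) F) (d : g.1.det = 1) (h : g.1 1 1 = g.1 0 0) : g * g = 1 := by
  have h2 : (2 : F) = 0 := CharTwo.two_eq_zero
  rw [det_fin_two, h] at d
  ext i j
  fin_cases i <;> fin_cases j <;>
    simp only [Units.val_mul, mul_apply, Fin.sum_univ_two, Units.val_one, Fin.zero_eta, Fin.mk_one,
      Fin.isValue, one_apply_eq, h]
  · linear_combination d + g.1 0 1 * g.1 1 0 * h2
  · rw [one_apply_ne (by decide)]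
    linear_combination g.1 0 0 * g.1 0 1 * h2
  · rw [one_apply_ne (by decide)]
    linear_combination g.1 0 0 * g.1 1 0 * h2
  · linear_combination d + g.1 0 1 * g.1 1 0 * h2

theorem up_of (g : GL (Fin 2) F) (d : g.1.det = 1) (h : g.1 1 1 = g.1 0 0) (k : g.1 1 0 = 0) :
    g = uu (g.1 0 1) := by
  have h2 : (2 : F) = 0 := CharTwo.two_eq_zero
  rw [det_fin_two, h, k] at d
  have h3 : g.1 0 0 - 1 = 0 := pow_eq_zero_iff (two_ne_zero (α := ℕ)) |>.1 (by
    linear_combination d + (1 - g.1 0 0) * h2)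
  ext i j
  fin_cases i <;> fin_cases j <;> simp [uu, h, k, sub_eq_zero.1 h3]

theorem ex_w (z : GL (Fin 2) F) (d : z.1.det = 1) (h : z.1 1 1 = z.1 0 0) :
    ∃ (w : GL (Fin 2) F) (a : F), w * z * w⁻¹ = uu a := by
  have h2 : (2 : F) = 0 := CharTwo.two_eq_zero
  by_cases k : z.1 1 0 = 0
  · exact ⟨1, _, by rw [one_mul, inv_one, mul_one]; exact up_of z d h k⟩
  refine ⟨(GeneralLinearGroup.mkOfDetNeZero !![z.1 0 0 + 1, 1; z.1 1 0, 0]
    (by simpa [det_fin_two] using k))⁻¹, 1, ?_⟩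
  rw [inv_inv, mul_assoc, inv_mul_eq_iff_eq_mul]
  rw [det_fin_two, h] at d
  ext i j
  fin_cases i <;> fin_cases j <;>
    simp [uu, mul_apply, Fin.sum_univ_two, GeneralLinearGroup.mkOfDetNeZero,
      GeneralLinearGroup.mk', unitOfDetInvertible, h]
  · linear_combination d + z.1 0 1 * z.1 1 0 * h2
  · linear_combination -h2
  · linear_combination z.1 0 0 * z.1 1 0 * h2

theorem cen {a : F} (ha : a ≠ 0) (g : GL (Fin 2) F) (d : g.1.det = 1) (h : g * uu a = uu a * g) :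
    g = uu (g.1 0 1) := by
  have h0 := congrArg (fun x : GL (Fin 2) F => x.1 0 0) h
  have h1 := congrArg (fun x : GL (Fin 2) F => x.1 0 1) h
  simp [uu, mul_apply, Fin.sum_univ_two, ha] at h0 h1
  exact up_of g d (mul_left_cancel₀ ha (by linear_combination -h1)) h0

theorem det_cj (w g : GL (Fin 2) F) : (w * g * w⁻¹).1.det = g.1.det := by
  rw [Units.val_mul, Units.val_mul, det_units_conj]

theorem solv (H : Subgroup (GL (Fin 2) F)) (s : Sl H) (w : GL (Fin 2) F)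
    (h : ∀ g ∈ H, (w * g * w⁻¹).1 1 0 = 0) : Group.IsSolvable H := by
  have e : ∀ x y : GL (Fin 2) F, w * (x * y) * w⁻¹ = w * x * w⁻¹ * (w * y * w⁻¹) := fun x y => by
    group
  let f : H →* F :=
    { toFun := fun g => (w * g * w⁻¹).1 0 0
      map_one' := by simp
      map_mul' := fun x y => by
        rw [Subgroup.coe_mul, e, Units.val_mul, mul_apply, Fin.sum_univ_two, h _ y.2, mul_zero,
          add_zero] }
  have k : ∀ g : f.toHomUnits.ker, ∃ b, w * g.1.1 * w⁻¹ = uu b := fun g => by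
    have h1 : (w * g.1.1 * w⁻¹).1 0 0 = 1 := congrArg Units.val (MonoidHom.mem_ker.1 g.2)
    have d := (det_cj w g.1.1).trans (s.det _ g.1.2)
    refine ⟨_, up_of _ d ?_ (h _ g.1.2)⟩
    rw [det_fin_two, h _ g.1.2, h1] at d
    rw [h1]
    linear_combination d
  haveI : Group.IsSolvable f.toHomUnits.ker := Group.isSolvable_of_comm fun a b => by
    obtain ⟨x, hx⟩ := k a
    obtain ⟨y, hy⟩ := k b
    refine Subtype.ext (Subtype.ext (mul_left_cancel (a := w) (mul_right_cancel (b := w⁻¹) ?_)))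
    simp only [Subgroup.coe_mul]
    rw [e, e, hx, hy, ← uu_add, ← uu_add, add_comm]
  exact Group.isSolvable_of_ker_le_range f.toHomUnits.ker.subtype f.toHomUnits
    (by rw [Subgroup.range_subtype])

end St

open St in
theorem std0 : S_STD := by
  intro F _ _ H s n
  haveI := s.fin
  haveI : Fact (Nat.Prime 2) := ⟨Nat.prime_two⟩
  obtain ⟨P⟩ : Nonempty (Sylow 2 H) := inferInstance
  have h4 : 2 ^ 2 ∣ Nat.card P := P.pow_dvd_card_of_pow_dvd_card
    (by_contra fun h => n (G.solv_of_not_four H h))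
  have t0 : ∀ x : P, x.1.1.1 1 1 = x.1.1.1 0 0 := fun x => by
    obtain ⟨k, hk⟩ := P.2 x
    exact tr_zero _ k (congrArg (fun y : P => y.1.1) hk)
  have t1 : ∀ x : P, x⁻¹ = x := fun x => inv_eq_of_mul_eq_one_right
    (Subtype.ext (Subtype.ext (sq_one _ (s.det _ x.1.2) (t0 x))))
  have t2 : ∀ x y : P, x * y = y * x := fun x y => by rw [← t1 (x * y), _root_.mul_inv_rev, t1, t1]
  haveI := Fintype.ofFinite P
  obtain ⟨x, y, y', k1, k2, k3⟩ := (Fintype.two_lt_card_iff (α := P)).1 (by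
    have := Nat.le_of_dvd Nat.card_pos h4
    rw [Nat.card_eq_fintype_card] at this
    omega)
  obtain ⟨z, z', z1, z2, z3⟩ : ∃ z z' : P, z ≠ 1 ∧ z' ≠ 1 ∧ z ≠ z' :=
    ⟨x⁻¹ * y, x⁻¹ * y', fun h => k1 (inv_mul_eq_one.1 h), fun h => k2 (inv_mul_eq_one.1 h),
      fun h => k3 (mul_left_cancel h)⟩
  obtain ⟨w, a, hw⟩ := ex_w z.1.1 (s.det _ z.1.2) (t0 z)
  have e : ∀ x y : GL (Fin 2) F, w * (x * y) * w⁻¹ = w * x * w⁻¹ * (w * y * w⁻¹) := fun x y => by
    group
  have inj : ∀ x y : P, w * x.1.1 * w⁻¹ = w * y.1.1 * w⁻¹ → x = y := fun x y h =>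
    Subtype.ext (Subtype.ext (mul_left_cancel (mul_right_cancel h)))
  have nz : ∀ (x : P) b, x ≠ 1 → w * x.1.1 * w⁻¹ = uu b → b ≠ 0 := fun x b h k hb =>
    h (inj _ _ (by rw [k, hb, uu_zero]; simp))
  have a0 := nz z a z1 hw
  have up : ∀ x : P, ∃ b, w * x.1.1 * w⁻¹ = uu b := fun x =>
    ⟨_, cen a0 _ ((det_cj _ _).trans (s.det _ x.1.2)) (by
      have k : x.1.1 * z.1.1 = z.1.1 * x.1.1 := congrArg (fun y : P => y.1.1) (t2 x z)
      rw [← hw, ← e, ← e, k])⟩
  obtain ⟨g, hg, g0⟩ : ∃ g ∈ H, (w * g * w⁻¹).1 1 0 ≠ 0 := by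
    by_contra h
    push Not at h
    exact n (solv H s w h)
  have d := (det_cj w g).trans (s.det _ hg)
  generalize hG : w * g * w⁻¹ = G at d g0
  set c := -G.1 0 0 / G.1 1 0 with hc
  have cj : ∀ (x : GL (Fin 2) F), uu c * w * x * (uu c * w)⁻¹ = uu c * (w * x * w⁻¹) * (uu c)⁻¹ :=
    fun x => by group
  have cu : ∀ b, uu c * uu b * (uu c)⁻¹ = uu b := fun b => by
    rw [← uu_add, add_comm, uu_add, mul_inv_cancel_right]
  have mem : ∀ x ∈ H, uu c * (w * x * w⁻¹) * (uu c)⁻¹ ∈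
      H.map (MulAut.conj (uu c * w)).toMonoidHom := fun x hx => ⟨x, hx, cj x⟩
  obtain ⟨a', ha'⟩ := up z'
  refine ⟨uu c * w, ⟨(Set.toFinite (H : Set (GL (Fin 2) F))).image _, ?_⟩, ?_, ⟨a, a', a0, nz z' a' z2 ha', fun h => z3 (inj _ _ ?_),
    ?_, ?_⟩, -(G.1 1 0 ^ 2 * a), neg_ne_zero.2 (mul_ne_zero (pow_ne_zero _ g0) a0), ?_⟩
  · rintro _ ⟨x, hx, rfl⟩
    exact (det_cj _ x).trans (s.det x hx)
  · rw [← H.range_subtype, MonoidHom.map_range, ← Subgroup.index_comap]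
    refine Odd.of_dvd_nat (Nat.odd_iff.2 (Nat.two_dvd_ne_zero.1 P.not_dvd_index))
      (Subgroup.index_dvd_of_le fun x hx => ?_)
    obtain ⟨b, hb⟩ := up ⟨x, hx⟩
    exact ⟨b, ((cj x).trans (by rw [hb, cu])).symm⟩
  · rw [hw, ha', h]
  · simpa only [hw, cu] using mem _ z.1.2
  · simpa only [ha', cu] using mem _ z'.1.2
  · have k := mem _ (H.mul_mem (H.mul_mem hg z.1.2) (H.inv_mem hg))
    have k4 : uu c * G * uu a = ll (-(G.1 1 0 ^ 2 * a)) * (uu c * G) := by
      rw [det_fin_two] at d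
      have k5 : G.1 0 0 + c * G.1 1 0 = 0 := by rw [hc, div_mul_cancel₀ _ g0, add_neg_cancel]
      ext i j
      fin_cases i <;> fin_cases j <;>
        simp only [uu, ll, Units.val_mul, mul_apply, Fin.sum_univ_two, Fin.zero_eta, Fin.mk_one,
          Fin.isValue, of_apply, cons_val', cons_val_zero, cons_val_one, cons_val_fin_one]
      · ring
      · linear_combination a * k5
      · linear_combination G.1 1 0 ^ 2 * a * k5
      · linear_combination -(G.1 1 0 * a) * d + G.1 1 0 * a * G.1 1 1 * k5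
    rwa [show uu c * (w * (g * z.1.1 * g⁻¹) * w⁻¹) * (uu c)⁻¹ =
      uu c * (w * g * w⁻¹) * (w * z.1.1 * w⁻¹) * (uu c * (w * g * w⁻¹))⁻¹ by group, hG, hw, k4,
      mul_inv_cancel_right] at k

end Vale.Agent.P022E.Gp
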