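import Vale.Agent.P022E.Gp.Defs
import Vale.Agent.P022E.G.G1b

/-! A group of odd order is commutative. -/

namespace Vale.Agent.P022E.Gp

theorem odd0 : S_ODD := fun _ _ _ N s o _ hg _ hh =>
  haveI := s.fin
  G.odd_comm N o hg hh

end Vale.Agent.P022E.Gp
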