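import Vale.Agent.P022E.Gp.Defs

/-!
# P022E/Gp: regular elements have odd order, and the torus
-/

set_option linter.all false

noncomputable section

namespace Vale.Agent.P022E.Gp

open Matrix

variable {F : Type} [Field F] [CharP F 2]

/-- an involution has trace zero in the form `x 0 0 = x 1 1`, and is unipotent -/
theorem inv2 {x : Matrix (Fin 2) (Fin 2) F} (h : x * x = 1) :
    x 1 1 = x 0 0 ∧ (x 0 0 + 1) ^ 2 = x 0 1 * x 1 0 := by
  have h2 : (2 : F) = 0 := CharTwo.two_eq_zero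
  have a := congrFun (congrFun h 0) 0
  have b := congrFun (congrFun h 1) 1
  simp [Matrix.mul_apply, Fin.sum_univ_two] at a b
  refine ⟨sub_eq_zero.1 (pow_eq_zero_iff two_ne_zero |>.1 ?_), ?_⟩
  · linear_combination a + b - (x 0 0 * x 1 1 + x 0 1 * x 1 0 - 1) * h2
  · linear_combination a + (x 0 0 + 1 - x 0 1 * x 1 0) * h2

/-- an involution which commutes with an element of non zero trace is trivial -/
theorem inv_eq_one {x g : Matrix (Fin 2) (Fin 2) F} (h : x * x = 1) (c : x * g = g * x)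
    (t : g.trace ≠ 0) : x = 1 := by
  have h2 : (2 : F) = 0 := CharTwo.two_eq_zero
  obtain ⟨a, b⟩ := inv2 h
  have c1 := congrFun (congrFun c 0) 1
  have c2 := congrFun (congrFun c 1) 0
  simp [Matrix.mul_apply, Fin.sum_univ_two, a] at c1 c2
  rw [Matrix.trace_fin_two] at t
  have e1 : x 0 1 = 0 := (mul_eq_zero_iff_right t).1 (by
    linear_combination c1 + x 0 1 * g 0 0 * h2)
  have e2 : x 1 0 = 0 := (mul_eq_zero_iff_right t).1 (by
    linear_combination c2 + x 1 0 * g 1 1 * h2)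
  rw [e1, zero_mul, pow_eq_zero_iff two_ne_zero] at b
  have e : x 0 0 = 1 := by linear_combination b - h2
  rw [Matrix.eta_fin_two x, a, e, e1, e2, Matrix.one_fin_two]

/-- an element of finite order and non zero trace has odd order -/
theorem odd_order {g : GL (Fin 2) F} (f : IsOfFinOrder g) (t : g.1.trace ≠ 0) :
    Odd (orderOf g) := by
  rw [← Nat.not_even_iff_odd]
  rintro ⟨k, hk⟩
  have p := f.orderOf_pos
  have e : (g ^ k).1 = 1 := inv_eq_one (by
    rw [← Units.val_mul, ← pow_add, ← hk, pow_orderOf_eq_one, Units.val_one])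
    (by rw [← Units.val_mul, ← Units.val_mul, ← pow_succ, ← pow_succ']) t
  exact pow_ne_one_of_lt_orderOf (by omega) (show k < orderOf g by omega) (Units.ext e)

theorem Sl.ord {H : Subgroup (GL (Fin 2) F)} (s : Sl H) {g : GL (Fin 2) F} (h : g ∈ H) :
    IsOfFinOrder g := by
  have := s.fin
  exact (MonoidHom.isOfFinOrder H.subtype (isOfFinOrder_of_finite (⟨g, h⟩ : H)))

theorem uu_sq (a : F) : uu a * uu a = 1 := by rw [← uu_add, CharTwo.add_self_eq_zero, uu_zero]

theorem ll_sq (b : F) : ll b * ll b = 1 := by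
  ext i j; fin_cases i <;> fin_cases j <;> simp [ll, CharTwo.add_self_eq_zero]

/-- two involutions whose product has odd order are swapped by an involution -/
theorem dih {G : Type} [Group G] {u l : G} (hu : u * u = 1) (hl : l * l = 1) {k : ℕ}
    (h : (u * l) ^ (2 * k + 1) = 1) : (u * l) ^ k * u * u = l * ((u * l) ^ k * u) ∧
      (u * l) ^ k * u * l = u * ((u * l) ^ k * u) := by
  have a : (u * l)⁻¹ = l * u := by
    rw [_root_.mul_inv_rev, inv_eq_of_mul_eq_one_right hu, inv_eq_of_mul_eq_one_right hl]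
  have b : SemiconjBy u (u * l) (u * l)⁻¹ := by
    rw [SemiconjBy, a, ← mul_assoc, hu, mul_assoc, hu, one_mul, mul_one]
  have c : u * ((u * l) ^ k * u) = ((u * l) ^ k)⁻¹ := by
    rw [← mul_assoc, (b.pow_right k).eq, mul_assoc, hu, mul_one, inv_pow]
  have d : ((u * l) ^ k)⁻¹ = (u * l) ^ k * (u * l) := inv_eq_of_mul_eq_one_right (by
    rw [← mul_assoc, ← pow_add, ← pow_succ, ← two_mul, h])
  refine ⟨?_, by rw [c, d, mul_assoc]⟩
  have e : l = (u * l)⁻¹ * u := by rw [a, mul_assoc, hu, mul_one]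
  calc _ = (u * l)⁻¹ * ((u * l) ^ k * (u * l)) := by
          rw [mul_assoc, hu, mul_one, ← pow_succ, pow_succ', inv_mul_cancel_left]
    _ = (u * l)⁻¹ * u * ((u * l) ^ k * u) := by rw [← d, ← c, mul_assoc (u * l)⁻¹]
    _ = _ := by rw [← e]

/-- the involution which swaps the two fixed lines -/
theorem anti {H : Subgroup (GL (Fin 2) F)} (s : Sl H) {a b : F} (a0 : a ≠ 0) (b0 : b ≠ 0)
    (ha : uu a ∈ H) (hb : ll b ∈ H) :
    ∃ n ∈ H, ∃ c : F, c ≠ 0 ∧ n.1 = !![0, c; c⁻¹, 0] ∧ c ^ 2 * b = a := by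
  have h2 : (2 : F) = 0 := CharTwo.two_eq_zero
  obtain ⟨k, hk⟩ := odd_order (s.ord (H.mul_mem ha hb)) (by
    simp [uu, ll, Matrix.trace_fin_two]
    exact fun e => mul_ne_zero a0 b0 (by linear_combination e - h2))
  obtain ⟨e1, e2⟩ := dih (uu_sq a) (ll_sq b) (hk ▸ pow_orderOf_eq_one _)
  have m : (uu a * ll b) ^ k * uu a ∈ H := H.mul_mem (H.pow_mem (H.mul_mem ha hb) k) ha
  generalize (uu a * ll b) ^ k * uu a = n at e1 e2 m
  have d := s.det n m
  have p1 := congrArg (fun x : GL (Fin 2) F => x.1 0 1) e1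
  have p2 := congrArg (fun x : GL (Fin 2) F => x.1 1 1) e1
  have p3 := congrArg (fun x : GL (Fin 2) F => x.1 1 0) e2
  simp [uu, ll, Matrix.mul_apply, Fin.sum_univ_two, a0, b0] at p1 p2 p3
  rw [Matrix.det_fin_two, p1, zero_mul] at d
  have q : n.1 0 1 * n.1 1 0 = 1 := by linear_combination -d - h2
  have c0 := left_ne_zero_of_mul_eq_one q
  refine ⟨n, m, n.1 0 1, c0, ?_, ?_⟩
  · rw [← eq_inv_of_mul_eq_one_right q, ← p1]
    nth_rewrite 2 [p1]
    rw [← p3]
    exact Matrix.eta_fin_two _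
  · linear_combination a * q - n.1 0 1 * p2

theorem tor : S_TOR := fun F _ _ H S a a' a0 a1 ha ha' => by
  obtain ⟨b, b0, hb⟩ := S.low
  obtain ⟨n, m, c, c0, e, k⟩ := anti S.sl a0 b0 ha hb
  obtain ⟨n', m', c', c0', e', k'⟩ := anti S.sl a1 b0 ha' hb
  refine ⟨n * n', H.mul_mem m m', c * c'⁻¹, by simp [c0, c0'], ?_, ?_⟩
  · rw [Units.val_mul, e, e']
    simp [mul_comm]
  · rw [← k, ← k']
    field_simp

end Vale.Agent.P022E.Gp
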